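import Vale.Agent.P117.AN577.Geo
import Vale.Agent.P117.K.GeoA
import Vale.Agent.P117.K.KINB
import Vale.Agent.P122.H466.Gau

/-! # P117 / AN273 : the weighted Katz-Tao condition of the free pieces from the one of the tube averages (helper273) -/

open MeasureTheory Complex Set
open scoped ENNReal NNReal ContDiff FourierTransform

set_option linter.all false

namespace Vale.Agent.P117.AN273

open Vale.Agent.P117.AN577
open Vale.Agent.P122.C2 (Z2 fw fn)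
open Vale.Agent.P122.AN (hz dv wg Srf Dat pie desc slp KTw enw StE measurable_wg fw_add fn_add abs_fw_le abs_fn_le)
open Vale.Agent.P117.K (E3 grd pc sl1 sl2 Ams den KTd)
open Vale.Agent.P117.K.Geo (Gk mem_Gk sk yk yk_fibre)

/-- (b) the weight of a plank is dominated by a summable family of planks -/
def KtdWg (M : ℕ) : Prop := ∃ C : ℝ, 0 ≤ C ∧ ∀ (N : ℕ) (A : ℝ) (ν : ℤ × ℤ → E3 → ℝ≥0∞), 1 ≤ N → 0 ≤ A →
  (∀ k, Measurable (ν k)) → KTd N A ν → ∀ (θ u1 u2 : ℝ) (s : Fin 2 → ℝ) (p : E3) (G : Finset (ℤ × ℤ)), G ⊆ grd N →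
    (N:ℝ)⁻¹ ≤ u1 → u1 ≤ u2 →
    (∀ k ∈ G, |fw θ (fun i => sk N k i - s i)| ≤ 3 * u2 ∧ |fn θ (fun i => sk N k i - s i)| ≤ 3 * u1) →
    ∑ k ∈ G, ∫⁻ z, ν k z * wg M θ (u2 * (N:ℝ) ^ 2) (u1 * (N:ℝ) ^ 2) ((N:ℝ) ^ 2) s (z - p) ≤
      ENNReal.ofReal (C * A * (u1 * u2 * (N:ℝ) ^ 6))

theorem inv_finset_sum {ι : Type*} (s : Finset ι) (f : ι → E3 → ℂ) (hf : ∀ i ∈ s, Integrable (f i)) (z : E3) :
    𝓕⁻ (fun ξ => ∑ i ∈ s, f i ξ) z = ∑ i ∈ s, 𝓕⁻ (f i) z := by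
  simp only [Real.fourierInv_eq']
  rw [← integral_finset_sum]
  · refine integral_congr_ae (Filter.Eventually.of_forall fun ξ => ?_)
    simp only [smul_eq_mul]
    rw [Finset.mul_sum]
  · intro i hi
    refine (hf i hi).norm.mono' ?_ (Filter.Eventually.of_forall fun ξ => ?_)
    · have hc : Continuous fun ξ : E3 => cexp (((2 * Real.pi * inner ℝ ξ z : ℝ) : ℂ) * I) := by fun_prop
      exact AEStronglyMeasurable.smul hc.aestronglyMeasurable (hf i hi).aestronglyMeasurable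
    · rw [norm_smul, Complex.norm_exp_ofReal_mul_I, one_mul]

/-- the caps of slope index `θ` near the base point -/
noncomputable def fib (N : ℕ) (θ : Z2) : Finset (ℤ × ℤ) := by
  classical exact (Gk N).filter (fun k => sidx N k = θ)

theorem sidx_eq (K n : ℕ) (k : ℤ × ℤ) : sidx (2 ^ (K * n)) k = yk (K * n) (2 ^ (K * n)) k := by
  funext i
  unfold sidx yk sk
  fin_cases i <;> simp

theorem card_fib (K n : ℕ) (θ : Z2) : (fib (2 ^ (K * n)) θ).card ≤ 9 := by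
  classical
  have h := yk_fibre (N := 2 ^ (K * n)) (L := K * n) Nat.one_le_two_pow le_rfl θ
  refine le_trans (Finset.card_le_card ?_) h
  intro k hk
  unfold fib at hk
  rw [Finset.mem_filter] at hk ⊢
  exact ⟨hk.1, by rw [← sidx_eq]; exact hk.2⟩

theorem pc_near {c1 : ℝ} {K n : ℕ} {o1 o2 : ℝ} {g : E3 → ℂ} (H : Hyp c1 K n o1 o2 g) {k : ℤ × ℤ}
    (hk : k ∈ grd (2 ^ (K * n))) {ξ : E3} (h : pc (2 ^ (K * n)) o1 o2 k g ξ ≠ 0) : k ∈ Gk (2 ^ (K * n)) := by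
  unfold pc at h
  rw [ne_eq, ite_eq_right_iff, Classical.not_imp] at h
  obtain ⟨h1, h2⟩ := h
  have h3 := kx_near H h2
  unfold kx at h3
  rw [h1] at h3
  rw [mem_Gk]
  refine ⟨hk, ?_, ?_⟩
  · exact h3.2.2.1.trans (by norm_num)
  · exact h3.2.2.2.trans (by norm_num)

theorem pcs_fib {c1 : ℝ} {K n : ℕ} {o1 o2 : ℝ} {g : E3 → ℂ} (H : Hyp c1 K n o1 o2 g) (θ : Z2) (ξ : E3) :
    pcs (2 ^ (K * n)) o1 o2 g θ ξ = ∑ k ∈ fib (2 ^ (K * n)) θ, pc (2 ^ (K * n)) o1 o2 k g ξ := by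
  classical
  unfold pcs fib
  symm
  have hs : ((Gk (2 ^ (K * n))).filter (fun k => sidx (2 ^ (K * n)) k = θ)) ⊆
      (grd (2 ^ (K * n))).filter (fun k => sidx (2 ^ (K * n)) k = θ) := by
    intro k hk
    rw [Finset.mem_filter] at hk ⊢
    exact ⟨(mem_Gk.1 hk.1).1, hk.2⟩
  refine (Finset.sum_subset hs ?_).trans ?_
  · intro k hk hk2
    by_contra h
    apply hk2
    rw [Finset.mem_filter] at hk ⊢
    exact ⟨pc_near H hk.1 h, hk.2⟩
  · congr

/-- pointwise bound of a free piece by the tube averages -/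
theorem ptw (M' : ℕ) : ∃ C : ℝ, 0 ≤ C ∧ ∀ (c1 : ℝ) (K n : ℕ) (o1 o2 : ℝ) (g : E3 → ℂ), Hyp c1 K n o1 o2 g →
    ∀ (θ : Z2) (z : E3), ‖𝓕⁻ (pcs (2 ^ (K * n)) o1 o2 g θ) z‖ₑ ^ 2 ≤
      ENNReal.ofReal C * ∑ k ∈ fib (2 ^ (K * n)) θ, den M' (2 ^ (K * n)) o1 o2 g k z := by
  obtain ⟨C, hC, h⟩ := KC.pt_den M'
  refine ⟨9 * C, by positivity, ?_⟩
  intro c1 K n o1 o2 g H θ z
  have e1 : pcs (2 ^ (K * n)) o1 o2 g θ = fun ξ => ∑ k ∈ fib (2 ^ (K * n)) θ, pc (2 ^ (K * n)) o1 o2 k g ξ := by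
    funext ξ; exact pcs_fib H θ ξ
  have hN : 4 ≤ 2 ^ (K * n) := le_trans (by norm_num) H.big
  rw [e1, inv_finset_sum _ _ (fun k _ => KC.integrable_pc H.ams.int)]
  calc ‖∑ k ∈ fib (2 ^ (K * n)) θ, 𝓕⁻ (pc (2 ^ (K * n)) o1 o2 k g) z‖ₑ ^ 2
      ≤ (fib (2 ^ (K * n)) θ).card * ∑ k ∈ fib (2 ^ (K * n)) θ, ‖𝓕⁻ (pc (2 ^ (K * n)) o1 o2 k g) z‖ₑ ^ 2 :=
        KC.enorm_sum_sq_le _ _
    _ ≤ ENNReal.ofReal 9 * ∑ k ∈ fib (2 ^ (K * n)) θ, ENNReal.ofReal C * den M' (2 ^ (K * n)) o1 o2 g k z := by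
        gcongr with k hk
        · rw [← ENNReal.ofReal_natCast]
          apply ENNReal.ofReal_le_ofReal
          exact_mod_cast card_fib K n θ
        · exact h _ o1 o2 c1 g hN H.ho1 H.ho2 H.c1le H.ams k z
    _ = _ := by
        rw [← Finset.mul_sum, ← mul_assoc, ← ENNReal.ofReal_mul (by norm_num)]

/-- **[A3]** from (b) -/
theorem stKTr_of (hb : ∀ M : ℕ, 6 ≤ M → KtdWg M) : StKTr := by
  classical
  intro M M0 hM
  obtain ⟨C1, hC1, hb⟩ := hb M hM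
  obtain ⟨C2, hC2, hp⟩ := ptw M0
  refine ⟨M0, C2 * C1, le_rfl, by positivity, ?_⟩
  intro c1 K n o1 o2 g A H hA hKT θ u1 u2 s p U hu1 hu12 hu2 hU
  have hN1 : 1 ≤ 2 ^ (K * n) := Nat.one_le_two_pow
  have hR : (2:ℝ) ^ (2 * K * n) = (((2 ^ (K * n) : ℕ)) : ℝ) ^ 2 := by push_cast; rw [← pow_mul]; congr 1; ring
  have hR6 : (2:ℝ) ^ (6 * K * n) = (((2 ^ (K * n) : ℕ)) : ℝ) ^ 6 := by push_cast; rw [← pow_mul]; congr 1; ring
  have hhalf : (1 / 2 : ℝ) ^ (K * n) = (((2 ^ (K * n) : ℕ)) : ℝ)⁻¹ := by push_cast; rw [one_div, inv_pow]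
  have hNr : (2:ℝ) ^ (K * n) = (((2 ^ (K * n) : ℕ)) : ℝ) := by push_cast; rfl
  rw [hhalf] at hu1
  rw [hR, hR6]
  have hNp : (0:ℝ) < (((2 ^ (K * n) : ℕ)) : ℝ) := by positivity
  have hH : Hyp c1 K n o1 o2 g := H
  have hgi := H.ams.int
  set N : ℕ := 2 ^ (K * n) with hNdef
  set W : E3 → ℝ≥0∞ := fun z => wg M θ (u2 * (N:ℝ) ^ 2) (u1 * (N:ℝ) ^ 2) ((N:ℝ) ^ 2) s (z - p) with hW
  have hWm : Measurable W := (measurable_wg M).comp (measurable_id.sub_const p)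
  set G := (Gk N).filter (fun k => sidx N k ∈ U) with hG
  have key := hb N A (den M0 N o1 o2 g) hN1 hA (fun k => KINB.measurable_den M0 N o1 o2 hgi k) hKT θ u1 u2 s p G
    (fun k hk => (mem_Gk.1 (Finset.mem_filter.1 hk).1).1) hu1 hu12 ?_
  · calc ∑ τ ∈ U, ∫⁻ z, ‖𝓕⁻ (pcs N o1 o2 g τ) z‖ₑ ^ 2 * W z
        ≤ ∑ τ ∈ U, ∫⁻ z, ENNReal.ofReal C2 * ∑ k ∈ fib N τ, den M0 N o1 o2 g k z * W z := by
          refine Finset.sum_le_sum fun τ _ => lintegral_mono fun z => ?_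
          rw [← Finset.sum_mul, ← mul_assoc]
          exact mul_le_mul_left (hp c1 K n o1 o2 g hH τ z) _
      _ = ENNReal.ofReal C2 * ∑ τ ∈ U, ∑ k ∈ fib N τ, ∫⁻ z, den M0 N o1 o2 g k z * W z := by
          rw [Finset.mul_sum]
          refine Finset.sum_congr rfl fun τ _ => ?_
          rw [lintegral_const_mul' _ _ ENNReal.ofReal_ne_top, lintegral_finset_sum]
          intro k _
          exact (KINB.measurable_den M0 N o1 o2 hgi k).mul hWm
      _ = ENNReal.ofReal C2 * ∑ k ∈ G, ∫⁻ z, den M0 N o1 o2 g k z * W z := by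
          congr 1
          rw [← Finset.sum_fiberwise_of_maps_to (s := G) (t := U) (g := fun k => sidx N k)
            (fun k hk => (Finset.mem_filter.1 hk).2)]
          refine Finset.sum_congr rfl fun τ hτ => ?_
          refine Finset.sum_congr ?_ fun _ _ => rfl
          unfold fib
          ext k
          simp only [Finset.mem_filter, hG]
          constructor
          · rintro ⟨h1, h2⟩
            exact ⟨⟨h1, by rw [h2]; exact hτ⟩, h2⟩
          · rintro ⟨⟨h1, _⟩, h2⟩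
            exact ⟨h1, h2⟩
      _ ≤ ENNReal.ofReal C2 * ENNReal.ofReal (C1 * A * (u1 * u2 * (N:ℝ) ^ 6)) := by gcongr
      _ = _ := by
          rw [← ENNReal.ofReal_mul hC2]
          congr 1
          ring
  · intro k hk
    have hkU := (Finset.mem_filter.1 hk).2
    have h1 := hU _ hkU
    have hd : ∀ i, |sk N k i - slp n K (sidx N k) i| ≤ (N:ℝ)⁻¹ := by
      intro i
      have e2 : sidx N k i = ⌊(N:ℝ) * sk N k i⌋ := by
        unfold sidx sk
        fin_cases i <;> simp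
      unfold slp
      rw [e2, hNr]
      have h3 := Int.floor_le ((N:ℝ) * sk N k i)
      have h4 := Int.lt_floor_add_one ((N:ℝ) * sk N k i)
      rw [abs_le]
      have e3 : sk N k i - (⌊(N:ℝ) * sk N k i⌋ : ℝ) / N = ((N:ℝ) * sk N k i - ⌊(N:ℝ) * sk N k i⌋) * (N:ℝ)⁻¹ := by
        field_simp
      rw [e3]
      have h5 : (0:ℝ) ≤ (N:ℝ)⁻¹ := by positivity
      constructor
      · nlinarith
      · nlinarith
    have e4 : (fun i => sk N k i - s i) = fun i => (slp n K (sidx N k) i - s i) + (sk N k i - slp n K (sidx N k) i) := by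
      funext i; ring
    have h6 := abs_fw_le θ (fun i => sk N k i - slp n K (sidx N k) i)
    have h7 := abs_fn_le θ (fun i => sk N k i - slp n K (sidx N k) i)
    have h8 := hd 0
    have h9 := hd 1
    have h10 : (N:ℝ)⁻¹ ≤ u2 := hu1.trans hu12
    constructor
    · rw [e4, fw_add θ (fun i => slp n K (sidx N k) i - s i) (fun i => sk N k i - slp n K (sidx N k) i)]
      refine (abs_add_le _ _).trans ?_
      have := h1.1
      linarith
    · rw [e4, fn_add θ (fun i => slp n K (sidx N k) i - s i) (fun i => sk N k i - slp n K (sidx N k) i)]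
      refine (abs_add_le _ _).trans ?_
      have := h1.2
      linarith

end Vale.Agent.P117.AN273
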