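import Vale.Agent.P117.AN273.KTr
import Vale.Agent.P117.F837.KTw

/-! # P117 / AN273 : `StKTr` (helper273) -/

namespace Vale.Agent.P117.AN273

open Vale.Agent.P117.AN577

/-- **[A3]** -/
theorem stKTr : StKTr := by
  refine stKTr_of fun M hM => ?_
  obtain ⟨C, hC, h⟩ := F837.ktd_wg M (by omega)
  exact ⟨C, hC, h⟩

end Vale.Agent.P117.AN273
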